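import Mathlib

/-!
P036: point sets covered by few convex curves satisfy the bound of Heilbronn's problem.
-/

namespace Vale.Agent.Results.P036.ConvexCurves

/-- The area of the triangle `p q r`. -/
noncomputable def area (p q r : ℝ × ℝ) : ℝ :=
  |(q.1 - p.1) * (r.2 - p.2) - (q.2 - p.2) * (r.1 - p.1)| / 2

lemma amgm {u v w : ℝ} (hu : 0 ≤ u) (hv : 0 ≤ v) (hw : 0 ≤ w) :
    27 * (u * v * w) ≤ (u + v + w) ^ 3 := by
  nlinarith [mul_nonneg hu hv, mul_nonneg hv hw, mul_nonneg hu hw,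
    mul_nonneg hu (sq_nonneg (v - w)), mul_nonneg hv (sq_nonneg (u - w)),
    mul_nonneg hw (sq_nonneg (u - v)), mul_nonneg hu (sq_nonneg (u - v)),
    mul_nonneg hu (sq_nonneg (u - w)), mul_nonneg hv (sq_nonneg (u - v)),
    mul_nonneg hv (sq_nonneg (v - w)), mul_nonneg hw (sq_nonneg (u - w)),
    mul_nonneg hw (sq_nonneg (v - w))]

/-- the core estimate along one convex curve -/
lemma core {f : ℝ → ℝ} (hf : ConvexOn ℝ (Set.Icc 0 1) f)
    (hL : ∀ s ∈ Set.Icc (0 : ℝ) 1, ∀ t ∈ Set.Icc (0 : ℝ) 1, |f s - f t| ≤ |s - t|)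
    {m : ℕ} (hm : 0 < m) {x : ℕ → ℝ} (hx : ∀ i ≤ m + 1, x i ∈ Set.Icc (0 : ℝ) 1)
    (hmono : ∀ i ≤ m, x i < x (i + 1)) :
    ∃ i < m, area (x i, f (x i)) (x (i + 1), f (x (i + 1))) (x (i + 2), f (x (i + 2))) ≤
      1 / (m : ℝ) ^ 3 := by
  by_contra hcon
  push Not at hcon
  have hm0 : (0 : ℝ) < m := by exact_mod_cast hm
  set s : ℕ → ℝ := fun i => (f (x (i + 1)) - f (x i)) / (x (i + 1) - x i) with hs
  have hpos : ∀ i ≤ m, 0 < x (i + 1) - x i := fun i hi => by linarith [hmono i hi]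
  have hslope : ∀ i < m, s i ≤ s (i + 1) := by
    intro i hi
    exact hf.slope_mono_adjacent (hx i (by omega)) (hx (i + 2) (by omega)) (hmono i (by omega))
      (hmono (i + 1) (by omega))
  have hs1 : ∀ i ≤ m, |s i| ≤ 1 := by
    intro i hi
    rw [hs]
    simp only
    rw [abs_div, div_le_one (abs_pos.mpr (hpos i hi).ne')]
    exact hL _ (hx _ (by omega)) _ (hx _ (by omega))
  have hkey : ∀ i < m, 3 / (m : ℝ) < (x (i + 1) - x i) + (x (i + 2) - x (i + 1)) +
      (s (i + 1) - s i) / 2 := by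
    intro i hi
    have h1 := hcon i hi
    have ha := hpos i (by omega)
    have hb := hpos (i + 1) (by omega)
    have hc := hslope i hi
    have e1 : f (x (i + 1)) - f (x i) = s i * (x (i + 1) - x i) := by
      rw [hs]; simp only; field_simp
    have e2 : f (x (i + 2)) - f (x (i + 1)) = s (i + 1) * (x (i + 2) - x (i + 1)) := by
      rw [hs]; simp only; field_simp
    have e3 : area (x i, f (x i)) (x (i + 1), f (x (i + 1))) (x (i + 2), f (x (i + 2))) =
        (x (i + 1) - x i) * (x (i + 2) - x (i + 1)) * ((s (i + 1) - s i) / 2) := by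
      unfold area
      simp only
      have e4 : (x (i + 1) - x i) * (f (x (i + 2)) - f (x i)) -
          (f (x (i + 1)) - f (x i)) * (x (i + 2) - x i) =
          (x (i + 1) - x i) * (x (i + 2) - x (i + 1)) * (s (i + 1) - s i) := by
        have e5 : f (x (i + 2)) - f (x i) =
          s (i + 1) * (x (i + 2) - x (i + 1)) + s i * (x (i + 1) - x i) := by linarith
        rw [e5, e1]; ring
      rw [e4, abs_of_nonneg (mul_nonneg (mul_nonneg ha.le hb.le) (by linarith))]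
      ring
    rw [e3] at h1
    by_contra h2
    push Not at h2
    set u := x (i + 1) - x i
    set v := x (i + 2) - x (i + 1)
    set w := (s (i + 1) - s i) / 2
    have hw : 0 ≤ w := by simp only [w]; linarith
    have h3 := amgm ha.le hb.le hw
    have h4 : (u + v + w) ^ 3 ≤ (3 / (m : ℝ)) ^ 3 :=
      pow_le_pow_left₀ (by positivity) h2 3
    have h5 : (3 / (m : ℝ)) ^ 3 = 27 * (1 / (m : ℝ) ^ 3) := by
      rw [div_pow]; ring
    rw [h5] at h4
    linarith
  have hsum : ∑ i ∈ Finset.range m, (3 / (m : ℝ)) < ∑ i ∈ Finset.range m,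
      ((x (i + 1) - x i) + (x (i + 2) - x (i + 1)) + (s (i + 1) - s i) / 2) :=
    Finset.sum_lt_sum_of_nonempty (Finset.nonempty_range_iff.mpr hm.ne')
      (fun i hi => hkey i (Finset.mem_range.mp hi))
  rw [Finset.sum_const, Finset.card_range, nsmul_eq_mul, Finset.sum_add_distrib,
    Finset.sum_add_distrib, ← Finset.sum_div, Finset.sum_range_sub x,
    Finset.sum_range_sub (fun i => x (i + 1)), Finset.sum_range_sub s] at hsum
  have h6 : (m : ℝ) * (3 / m) = 3 := by field_simp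
  rw [h6] at hsum
  have hx0 := hx 0 (by omega)
  have hxm := hx m (by omega)
  have hx1 := hx 1 (by omega)
  have hxm1 := hx (m + 1) (by omega)
  have h7 := abs_le.mp (hs1 m le_rfl)
  have h8 := abs_le.mp (hs1 0 (by omega))
  simp only [Set.mem_Icc] at hx0 hxm hx1 hxm1
  simp only [zero_add] at hsum
  linarith [h7.2, h8.1, hx0.1, hxm.2, hx1.1, hxm1.2]

lemma area_neg (a b c a' b' c' : ℝ) :
    area (a, -a') (b, -b') (c, -c') = area (a, a') (b, b') (c, c') := by
  unfold area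
  simp only
  rw [show (b - a) * (-c' - -a') - (-b' - -a') * (c - a) =
    -((b - a) * (c' - a') - (b' - a') * (c - a)) by ring, abs_neg]

lemma area_swap (a b c a' b' c' : ℝ) :
    area (a', a) (b', b) (c', c) = area (a, a') (b, b') (c, c') := by
  unfold area
  simp only
  rw [show (b' - a') * (c - a) - (b - a) * (c' - a') =
    -((b - a) * (c' - a') - (b' - a') * (c - a)) by ring, abs_neg]

lemma arc {f : ℝ → ℝ} (hf : ConvexOn ℝ (Set.Icc 0 1) f ∨ ConcaveOn ℝ (Set.Icc 0 1) f)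
    (hL : ∀ s ∈ Set.Icc (0 : ℝ) 1, ∀ t ∈ Set.Icc (0 : ℝ) 1, |f s - f t| ≤ |s - t|)
    {m : ℕ} (hm : 0 < m) (X : Finset ℝ) (hX : ∀ t ∈ X, t ∈ Set.Icc (0 : ℝ) 1)
    (hcard : m + 2 ≤ X.card) :
    ∃ u ∈ X, ∃ v ∈ X, ∃ w ∈ X, u < v ∧ v < w ∧
      area (u, f u) (v, f v) (w, f w) ≤ 1 / (m : ℝ) ^ 3 := by
  set e := X.orderEmbOfCardLe hcard with he
  have hemem : ∀ i, e i ∈ X := fun i => Finset.orderEmbOfCardLe_mem X hcard i
  set x : ℕ → ℝ := fun i => if h : i < m + 2 then e ⟨i, h⟩ else 0 with hx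
  have hxmem : ∀ i ≤ m + 1, x i ∈ X := by
    intro i hi
    rw [hx]; simp only
    rw [dif_pos (by omega)]
    exact hemem _
  have hmono : ∀ i ≤ m, x i < x (i + 1) := by
    intro i hi
    rw [hx]; simp only
    rw [dif_pos (by omega), dif_pos (by omega)]
    exact e.strictMono (by rw [Fin.lt_def]; simp)
  rcases hf with hf | hf
  · obtain ⟨i, hi, hA⟩ := core hf hL hm (fun i hi => hX _ (hxmem i hi)) hmono
    exact ⟨_, hxmem i (by omega), _, hxmem (i + 1) (by omega), _, hxmem (i + 2) (by omega),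
      hmono i (by omega), hmono (i + 1) (by omega), hA⟩
  · have hf' : ConvexOn ℝ (Set.Icc 0 1) (fun t => -f t) := hf.neg
    have hL' : ∀ s ∈ Set.Icc (0 : ℝ) 1, ∀ t ∈ Set.Icc (0 : ℝ) 1,
        |(fun t => -f t) s - (fun t => -f t) t| ≤ |s - t| := by
      intro s hs t ht
      simp only
      rw [show -f s - -f t = -(f s - f t) by ring, abs_neg]
      exact hL s hs t ht
    obtain ⟨i, hi, hA⟩ := core hf' hL' hm (fun i hi => hX _ (hxmem i hi)) hmono
    rw [area_neg] at hA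
    exact ⟨_, hxmem i (by omega), _, hxmem (i + 1) (by omega), _, hxmem (i + 2) (by omega),
      hmono i (by omega), hmono (i + 1) (by omega), hA⟩

/-- A convex arc: the graph over `[0,1]`, in one of the two coordinate directions, of a convex or
concave function with Lipschitz constant `1`. (The part of any closed convex curve inside the unit
square is covered by four such arcs, extended suitably.) -/
def ConvexArc (C : Set (ℝ × ℝ)) : Prop :=
  ∃ f : ℝ → ℝ, (ConvexOn ℝ (Set.Icc 0 1) f ∨ ConcaveOn ℝ (Set.Icc 0 1) f) ∧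
    (∀ s ∈ Set.Icc (0 : ℝ) 1, ∀ t ∈ Set.Icc (0 : ℝ) 1, |f s - f t| ≤ |s - t|) ∧
    (C = {p | p.1 ∈ Set.Icc (0 : ℝ) 1 ∧ p.2 = f p.1} ∨
      C = {p | p.2 ∈ Set.Icc (0 : ℝ) 1 ∧ p.1 = f p.2})

lemma on_arc {C : Set (ℝ × ℝ)} (hC : ConvexArc C) {m : ℕ} (hm : 0 < m) (T : Finset (ℝ × ℝ))
    (hT : ∀ p ∈ T, p ∈ C) (hcard : m + 2 ≤ T.card) :
    ∃ p ∈ T, ∃ q ∈ T, ∃ r ∈ T, p ≠ q ∧ q ≠ r ∧ p ≠ r ∧ area p q r ≤ 1 / (m : ℝ) ^ 3 := by
  classical
  obtain ⟨f, hf, hL, hC' | hC'⟩ := hC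
  · have hinj : Set.InjOn Prod.fst (T : Set (ℝ × ℝ)) := by
      intro p hp q hq h
      have h1 := hT p hp
      have h2 := hT q hq
      rw [hC'] at h1 h2
      exact Prod.ext h (by rw [h1.2, h2.2, h])
    have hc : m + 2 ≤ (T.image Prod.fst).card := by rwa [Finset.card_image_of_injOn hinj]
    obtain ⟨u, hu, v, hv, w, hw, huv, hvw, hA⟩ := arc hf hL hm (T.image Prod.fst) (by
      intro t ht
      obtain ⟨p, hp, rfl⟩ := Finset.mem_image.mp ht
      have h1 := hT p hp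
      rw [hC'] at h1
      exact h1.1) hc
    obtain ⟨p, hp, rfl⟩ := Finset.mem_image.mp hu
    obtain ⟨q, hq, rfl⟩ := Finset.mem_image.mp hv
    obtain ⟨r, hr, rfl⟩ := Finset.mem_image.mp hw
    refine ⟨p, hp, q, hq, r, hr, ?_, ?_, ?_, ?_⟩
    · rintro rfl; exact lt_irrefl _ huv
    · rintro rfl; exact lt_irrefl _ hvw
    · rintro rfl; exact lt_irrefl _ (huv.trans hvw)
    · have h1 := hT p hp
      have h2 := hT q hq
      have h3 := hT r hr
      rw [hC'] at h1 h2 h3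
      rw [← h1.2, ← h2.2, ← h3.2] at hA
      exact hA
  · have hinj : Set.InjOn Prod.snd (T : Set (ℝ × ℝ)) := by
      intro p hp q hq h
      have h1 := hT p hp
      have h2 := hT q hq
      rw [hC'] at h1 h2
      exact Prod.ext (by rw [h1.2, h2.2, h]) h
    have hc : m + 2 ≤ (T.image Prod.snd).card := by rwa [Finset.card_image_of_injOn hinj]
    obtain ⟨u, hu, v, hv, w, hw, huv, hvw, hA⟩ := arc hf hL hm (T.image Prod.snd) (by
      intro t ht
      obtain ⟨p, hp, rfl⟩ := Finset.mem_image.mp ht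
      have h1 := hT p hp
      rw [hC'] at h1
      exact h1.1) hc
    obtain ⟨p, hp, rfl⟩ := Finset.mem_image.mp hu
    obtain ⟨q, hq, rfl⟩ := Finset.mem_image.mp hv
    obtain ⟨r, hr, rfl⟩ := Finset.mem_image.mp hw
    refine ⟨p, hp, q, hq, r, hr, ?_, ?_, ?_, ?_⟩
    · rintro rfl; exact lt_irrefl _ huv
    · rintro rfl; exact lt_irrefl _ hvw
    · rintro rfl; exact lt_irrefl _ (huv.trans hvw)
    · have h1 := hT p hp
      have h2 := hT q hq
      have h3 := hT r hr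
      rw [hC'] at h1 h2 h3
      rw [← area_swap, ← h1.2, ← h2.2, ← h3.2] at hA
      exact hA

/-- Let `P` be a set of `n` points covered by `k` convex arcs, `1 ≤ k`, `8 k ≤ n`. Then `P`
contains three distinct points forming a triangle of area at most `(4k/n)^3`. In particular the
area is at most `64 / n^2` whenever `k^3 ≤ n`. -/
theorem result (n k : ℕ) (hk : 1 ≤ k) (hkn : 8 * k ≤ n) (C : Fin k → Set (ℝ × ℝ))
    (hC : ∀ j, ConvexArc (C j)) (P : Finset (ℝ × ℝ)) (hn : P.card = n)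
    (hcov : ∀ p ∈ P, ∃ j, p ∈ C j) :
    ∃ p ∈ P, ∃ q ∈ P, ∃ r ∈ P, p ≠ q ∧ q ≠ r ∧ p ≠ r ∧
      area p q r ≤ (4 * (k : ℝ) / n) ^ 3 ∧ (k ^ 3 ≤ n → area p q r ≤ 64 / (n : ℝ) ^ 2) := by
  classical
  have hk0 : (0 : ℝ) < k := by exact_mod_cast hk
  have hn0 : (0 : ℝ) < n := by exact_mod_cast (by omega : 0 < n)
  set m : ℕ := n / (4 * k) + 1 with hm
  have hm0 : 0 < m := Nat.succ_pos _
  have hmul : 4 * k * (n / (4 * k)) ≤ n := Nat.mul_div_le n (4 * k)
  have hmn : k * (m + 1) < n := by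
    rw [hm]
    nlinarith
  obtain ⟨j0⟩ : Nonempty (Fin k) := ⟨⟨0, hk⟩⟩
  set g : ℝ × ℝ → Fin k := fun p => if h : ∃ j, p ∈ C j then h.choose else j0 with hg
  have hgm : ∀ p ∈ P, p ∈ C (g p) := by
    intro p hp
    rw [hg]; simp only
    rw [dif_pos (hcov p hp)]
    exact (hcov p hp).choose_spec
  obtain ⟨j, _, hj⟩ := Finset.exists_lt_card_fiber_of_mul_lt_card_of_maps_to
    (s := P) (t := Finset.univ) (f := g) (n := m + 1) (fun a _ => Finset.mem_univ _) (by
      rw [Finset.card_univ, Fintype.card_fin, hn]; exact hmn)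
  obtain ⟨p, hp, q, hq, r, hr, h1, h2, h3, hA⟩ := on_arc (hC j) hm0 (P.filter (fun p => g p = j))
    (by
      intro p hp
      have h := Finset.mem_filter.mp hp
      have h' := hgm p h.1
      rwa [h.2] at h') (by omega)
  have hmr : (n : ℝ) / (4 * k) ≤ m := by
    have h4 : n < 4 * k * m := by
      rw [hm]; exact Nat.lt_mul_div_succ n (by omega)
    have h5 : (n : ℝ) < 4 * k * m := by exact_mod_cast h4
    rw [div_le_iff₀ (by positivity)]
    linarith
  have hA2 : area p q r ≤ (4 * (k : ℝ) / n) ^ 3 := by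
    refine hA.trans ?_
    have h6 : 1 / (m : ℝ) ≤ 4 * k / n := by
      have hmpos : (0 : ℝ) < m := by exact_mod_cast hm0
      rw [div_le_div_iff₀ hmpos hn0]
      rw [div_le_iff₀ (by positivity)] at hmr
      linarith
    calc 1 / (m : ℝ) ^ 3 = (1 / (m : ℝ)) ^ 3 := by rw [div_pow, one_pow]
      _ ≤ (4 * (k : ℝ) / n) ^ 3 := pow_le_pow_left₀ (by positivity) h6 3
  refine ⟨p, (Finset.mem_filter.mp hp).1, q, (Finset.mem_filter.mp hq).1, r,
    (Finset.mem_filter.mp hr).1, h1, h2, h3, hA2, fun hk3 => hA2.trans ?_⟩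
  have hk3' : (k : ℝ) ^ 3 ≤ n := by exact_mod_cast hk3
  rw [div_pow, div_le_div_iff₀ (by positivity) (by positivity)]
  have : (4 * (k : ℝ)) ^ 3 * (n : ℝ) ^ 2 = 64 * ((k : ℝ) ^ 3 * (n : ℝ) ^ 2) := by ring
  rw [this]
  have : (k : ℝ) ^ 3 * (n : ℝ) ^ 2 ≤ n * (n : ℝ) ^ 2 := mul_le_mul_of_nonneg_right hk3' (by positivity)
  nlinarith

end Vale.Agent.Results.P036.ConvexCurves
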